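import Mathlib

set_option autoImplicit false

namespace Crest.Agent.H0485

open Finset

noncomputable section

open Classical in
/-- flip one coordinate -/
def fl {ι : Type} (x : ι → Bool) (v : ι) : ι → Bool :=
  fun i => if i = v then !x i else x i

/-- weight of flipping a bit with the given current value -/
def wt (M : ℕ) (b : Bool) : ℕ := if b then M else 1

open Classical in
/-- weighted count of the coordinates satisfying `P` -/
def wsum {ι : Type} [Fintype ι] (M : ℕ) (x : ι → Bool) (P : ι → Prop) : ℕ :=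
  ∑ v, if P v then wt M (x v) else 0

/-- Hamming distance -/
def hd {ι : Type} [Fintype ι] (x y : ι → Bool) : ℕ :=
  (univ.filter fun i => x i ≠ y i).card

open Classical in
/-- indicator of a finite set -/
def ind {ι : Type} (A : Finset ι) : ι → Bool := fun i => decide (i ∈ A)

/-- component of a point of a product cube -/
def cp {κ W : Type} (x : κ × W → Bool) (k : κ) : W → Bool := fun v => x (k, v)

/-- the zero point -/
def zr (ι : Type) : ι → Bool := fun _ => false

theorem fl_fl {ι : Type} (x : ι → Bool) (v : ι) : fl (fl x v) v = x := by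
  funext i
  by_cases h : i = v <;> simp [fl, h]

theorem cp_fl_same {κ W : Type} (x : κ × W → Bool) (k : κ) (v : W) :
    cp (fl x (k, v)) k = fl (cp x k) v := by
  funext i
  by_cases h : i = v <;> simp [fl, cp, h]

theorem cp_fl_ne {κ W : Type} (x : κ × W → Bool) {k k' : κ} (h : k' ≠ k) (v : W) :
    cp (fl x (k, v)) k' = cp x k' := by
  funext i
  simp [fl, cp, h]

theorem hd_fl {ι : Type} [Fintype ι] (x y : ι → Bool) (v : ι) : hd (fl x v) y ≤ hd x y + 1 := by
  classical
  unfold hd
  calc (univ.filter fun i => fl x v i ≠ y i).card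
      ≤ (insert v (univ.filter fun i => x i ≠ y i)).card := by
        apply card_le_card
        intro i hi
        by_cases h : i = v
        · simp [h]
        · rw [mem_filter] at hi
          have h2 := hi.2
          simp only [fl, h, if_false] at h2
          exact mem_insert_of_mem (mem_filter.2 ⟨mem_univ _, h2⟩)
    _ ≤ _ := card_insert_le _ _

theorem hd_cp {κ W : Type} [Fintype κ] [Fintype W] (x y : κ × W → Bool) (k : κ) :
    hd (cp x k) (cp y k) ≤ hd x y := by
  classical
  unfold hd
  apply card_le_card_of_injOn (fun v => (k, v))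
  · intro v hv
    have h2 := (mem_filter.1 (mem_coe.1 hv)).2
    exact mem_coe.2 (mem_filter.2 ⟨mem_univ _, h2⟩)
  · intro a _ b _ h
    simpa using h

theorem hd_self {ι : Type} [Fintype ι] (x : ι → Bool) : hd x x = 0 := by
  simp [hd]

theorem wt_le {M : ℕ} (hM : 1 ≤ M) (b : Bool) : wt M b ≤ M := by
  cases b <;> simp [wt, hM]

theorem one_le_wt {M : ℕ} (hM : 1 ≤ M) (b : Bool) : 1 ≤ wt M b := by
  cases b <;> simp [wt, hM]

theorem wsum_mono {ι : Type} [Fintype ι] (M : ℕ) (x : ι → Bool) {P Q : ι → Prop}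
    (h : ∀ v, P v → Q v) : wsum M x P ≤ wsum M x Q := by
  unfold wsum
  apply sum_le_sum
  intro v _
  by_cases hp : P v
  · simp [hp, h v hp]
  · simp [hp]

theorem wsum_or {ι : Type} [Fintype ι] (M : ℕ) (x : ι → Bool) {P Q R : ι → Prop}
    (h : ∀ v, P v → Q v ∨ R v) : wsum M x P ≤ wsum M x Q + wsum M x R := by
  unfold wsum
  rw [← sum_add_distrib]
  apply sum_le_sum
  intro v _
  by_cases hp : P v
  · rcases h v hp with hq | hr
    · simp [hp, hq]
    · simp [hp, hr]
  · simp [hp]

theorem wsum_le_card {ι : Type} [Fintype ι] {M : ℕ} (hM : 1 ≤ M) (x : ι → Bool) (P : ι → Prop) :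
    wsum M x P ≤ Fintype.card ι * M := by
  unfold wsum
  calc _ ≤ ∑ _v : ι, M := by
        apply sum_le_sum
        intro v _
        split_ifs
        · exact wt_le hM _
        · exact Nat.zero_le _
    _ = _ := by simp

theorem wsum_eq_zero {ι : Type} [Fintype ι] (M : ℕ) (x : ι → Bool) {P : ι → Prop}
    (h : ∀ v, ¬ P v) : wsum M x P = 0 := by
  unfold wsum
  apply sum_eq_zero
  intro v _
  simp [h v]

theorem wsum_prod {κ W : Type} [Fintype κ] [Fintype W] (M : ℕ) (x : κ × W → Bool)
    (P : κ × W → Prop) : wsum M x P = ∑ k, wsum M (cp x k) (fun v => P (k, v)) := by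
  unfold wsum
  rw [Fintype.sum_prod_type]
  rfl

theorem sum_le_of_ite {κ : Type} [Fintype κ] (S : κ → ℕ) (P : κ → Prop) [DecidablePred P] (c n : ℕ)
    (h1 : ∀ k, P k → S k ≤ c) (h2 : ∀ k, ¬ P k → S k = 0)
    (hn : (univ.filter P).card ≤ n) : ∑ k, S k ≤ n * c := by
  calc ∑ k, S k ≤ ∑ k, if P k then c else 0 := by
        apply sum_le_sum
        intro k _
        by_cases hk : P k
        · simp [hk, h1 k hk]
        · simp [hk, h2 k hk]
    _ = (univ.filter P).card * c := by
        rw [← sum_filter]; simp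
    _ ≤ n * c := Nat.mul_le_mul_right _ hn

/-- A gadget: a region `G`, an inner region `H`, targets `A u` deep inside `H`, the origin deep outside
`G`, and weighted sensitivity bounds. -/
structure Good (M d : ℕ) {W U : Type} [Fintype W] (G H : (W → Bool) → Prop) (A : U → Finset W)
    (p q r : ℕ) : Prop where
  sub : ∀ x, H x → G x
  nbr : ∀ x v, H x → G (fl x v)
  tgt : ∀ u x, hd x (ind (A u)) ≤ d → H x
  zero : ∀ x, hd x (zr W) ≤ d → ¬ G x
  disj : ∀ u u', u ≠ u' → Disjoint (A u) (A u')
  s0 : ∀ x, ¬ G x → wsum M x (fun v => G (fl x v)) ≤ p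
  s1 : ∀ x, G x → wsum M x (fun v => ¬ G (fl x v)) ≤ q
  h0 : ∀ x, ¬ H x → wsum M x (fun v => H (fl x v)) ≤ r

open Classical in
/-- The colored semicomplete digraph used in one step of the recursion. -/
structure Tourn {V C : Type} [Fintype V] (E : V → V → Prop) (χ : V → V → C) (D : ℕ) : Prop where
  irr : ∀ i, ¬ E i i
  semi : ∀ i j, i ≠ j → E i j ∨ E j i
  outdeg : ∀ i, (univ.filter fun j => E i j).card ≤ D
  small : ∀ (T : Finset V) (t : V → C), (∀ i ∈ T, ∀ j ∈ T, E i j → χ i j = t j) → T.card ≤ 6

/-- interior of a region of the cube -/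
def intr {W : Type} (S : (W → Bool) → Prop) (x : W → Bool) : Prop := S x ∧ ∀ v, S (fl x v)

section Step

variable {W V C : Type}

/-- the region attached to the vertex `j` -/
def reg (P Q : (W → Bool) → Prop) (E : V → V → Prop) (χ : V → V → C) (j : V)
    (x : (V × C) × W → Bool) : Prop :=
  (∀ c, P (cp x (j, c))) ∧ ∀ l, E j l → Q (cp x (l, χ j l))

theorem reg_nbr {P Q : (W → Bool) → Prop} {E : V → V → Prop} {χ : V → V → C} {j : V}
    {x : (V × C) × W → Bool} (h : reg (intr P) (intr Q) E χ j x) (ξ : (V × C) × W) :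
    reg P Q E χ j (fl x ξ) := by
  obtain ⟨k, v⟩ := ξ
  have key : ∀ (S : (W → Bool) → Prop) (k' : V × C), intr S (cp x k') → S (cp (fl x (k, v)) k') := by
    intro S k' hS
    by_cases hk : k' = k
    · subst hk
      rw [cp_fl_same]
      exact hS.2 v
    · rw [cp_fl_ne x hk]
      exact hS.1
  exact ⟨fun c => key _ _ (h.1 c), fun l hl => key _ _ (h.2 l hl)⟩

theorem reg_sub {P Q : (W → Bool) → Prop} {E : V → V → Prop} {χ : V → V → C} {j : V}
    {x : (V × C) × W → Bool} (h : reg (intr P) (intr Q) E χ j x) : reg P Q E χ j x :=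
  ⟨fun c => (h.1 c).1, fun l hl => (h.2 l hl).1⟩

open Classical in
/-- targets of the new gadget -/
def newTgt {U : Type} [Fintype C] (A : U → Finset W) (ju : V × U) : Finset ((V × C) × W) :=
  ((univ : Finset C).image fun c => (ju.1, c)) ×ˢ A ju.2

theorem mem_newTgt {U : Type} [Fintype C] (A : U → Finset W) (j l : V) (u : U) (c : C) (v : W) :
    ((l, c), v) ∈ newTgt (V := V) (C := C) A (j, u) ↔ l = j ∧ v ∈ A u := by
  classical
  unfold newTgt
  rw [mem_product]
  simp only [mem_image]
  constructor
  · rintro ⟨⟨c', -, h⟩, hv⟩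
    exact ⟨(Prod.mk.inj h).1.symm, hv⟩
  · rintro ⟨rfl, hv⟩
    exact ⟨⟨c, mem_univ _, rfl⟩, hv⟩

theorem cp_ind_newTgt_same {U : Type} [Fintype C] (A : U → Finset W) (j : V) (u : U) (c : C) :
    cp (ind (newTgt (V := V) (C := C) A (j, u))) (j, c) = ind (A u) := by
  funext v
  unfold cp ind
  apply decide_eq_decide.2
  rw [mem_newTgt]
  simp

theorem cp_ind_newTgt_ne {U : Type} [Fintype C] (A : U → Finset W) {j l : V} (h : l ≠ j) (u : U)
    (c : C) : cp (ind (newTgt (V := V) (C := C) A (j, u))) (l, c) = zr W := by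
  funext v
  simp [cp, ind, mem_newTgt, zr, h]

theorem step {M d : ℕ} (hM : 1 ≤ M) {U : Type} [Fintype W] [Fintype V] [Fintype C] [Nonempty C]
    {G H : (W → Bool) → Prop} {A : U → Finset W} {p q r : ℕ}
    (g : Good M (d + 1) G H A p q r) {E : V → V → Prop} {χ : V → V → C} {D : ℕ}
    (t : Tourn E χ D) :
    Good M d (fun x => ∃ j, reg H (fun y => ¬ G y) E χ j x)
      (fun x => ∃ j, reg (intr H) (intr fun y => ¬ G y) E χ j x)
      (newTgt (V := V) (C := C) A) (q + 6 * r)
      (D * p + Fintype.card C * (Fintype.card W * M)) (Fintype.card W * M) := by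
  classical
  have uniq : ∀ (x : (V × C) × W → Bool) (i j : V), reg H (fun y => ¬ G y) E χ i x →
      reg H (fun y => ¬ G y) E χ j x → i = j := by
    intro x i j hi hj
    by_contra hne
    rcases t.semi i j hne with h | h
    · exact hi.2 j h (g.sub _ (hj.1 _))
    · exact hj.2 i h (g.sub _ (hi.1 _))
  refine ⟨?_, ?_, ?_, ?_, ?_, ?_, ?_, ?_⟩
  · rintro x ⟨j, hj⟩
    exact ⟨j, reg_sub hj⟩
  · rintro x ξ ⟨j, hj⟩
    exact ⟨j, reg_nbr hj ξ⟩
  · rintro ⟨j, u⟩ x hx
    refine ⟨j, fun c => ?_, fun l hl => ?_⟩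
    · have h1 : hd (cp x (j, c)) (ind (A u)) ≤ d := by
        rw [← cp_ind_newTgt_same (V := V) A j u c]
        exact (hd_cp _ _ _).trans hx
      exact ⟨g.tgt u _ (by omega), fun v => g.tgt u _ ((hd_fl _ _ _).trans (by omega))⟩
    · have hlj : l ≠ j := fun h => t.irr j (h ▸ hl)
      have h1 : hd (cp x (l, χ j l)) (zr W) ≤ d := by
        rw [← cp_ind_newTgt_ne (V := V) A hlj u (χ j l)]
        exact (hd_cp _ _ _).trans hx
      exact ⟨g.zero _ (by omega), fun v => g.zero _ ((hd_fl _ _ _).trans (by omega))⟩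
  · rintro x hx ⟨j, hj⟩
    obtain ⟨c⟩ := ‹Nonempty C›
    have h1 : hd (cp x (j, c)) (zr W) ≤ d := (hd_cp x (zr _) (j, c)).trans hx
    exact g.zero _ (by omega) (g.sub _ (hj.1 c))
  · rintro ⟨j, u⟩ ⟨j', u'⟩ hne
    rw [Finset.disjoint_left]
    rintro ⟨⟨l, c⟩, v⟩ h1 h2
    rw [mem_newTgt] at h1 h2
    obtain ⟨rfl, hv⟩ := h1
    obtain ⟨rfl, hv'⟩ := h2
    have : u ≠ u' := fun h => hne (by rw [h])
    exact Finset.disjoint_left.1 (g.disj u u' this) hv hv'
  · -- zero side sensitivity
    intro x hx
    let caseA : V × C → Prop := fun k =>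
      (∀ c', c' ≠ k.2 → H (cp x (k.1, c'))) ∧ ¬ H (cp x k) ∧
        ∀ l, E k.1 l → ¬ G (cp x (l, χ k.1 l))
    let caseB : V × C → Prop := fun k =>
      ∃ j, E j k.1 ∧ k.2 = χ j k.1 ∧ (∀ c', H (cp x (j, c'))) ∧ G (cp x k) ∧
        (∀ l, l ≠ k.1 → E j l → ¬ G (cp x (l, χ j l))) ∧ ¬ H (cp x k)
    have hsplit : ∀ ξ : (V × C) × W, (∃ j, reg H (fun y => ¬ G y) E χ j (fl x ξ)) →
        (caseB ξ.1 ∧ ¬ G (fl (cp x ξ.1) ξ.2)) ∨ (caseA ξ.1 ∧ H (fl (cp x ξ.1) ξ.2)) := by
      rintro ⟨⟨l, c⟩, v⟩ ⟨j, hj⟩
      by_cases hlj : l = j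
      · subst hlj
        right
        have hout : ∀ l', E l l' → ¬ G (cp x (l', χ l l')) := by
          intro l' hl'
          have hne : (l', χ l l') ≠ (l, c) := fun h => t.irr l ((Prod.mk.inj h).1 ▸ hl')
          have := hj.2 l' hl'
          rwa [cp_fl_ne x hne] at this
        have hoth : ∀ c', c' ≠ c → H (cp x (l, c')) := by
          intro c' hc'
          have hne : (l, c') ≠ (l, c) := fun h => hc' (Prod.mk.inj h).2
          have := hj.1 c'
          rwa [cp_fl_ne x hne] at this
        refine ⟨⟨hoth, fun hH => hx ⟨l, fun c' => ?_, hout⟩, hout⟩, ?_⟩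
        · by_cases hc' : c' = c
          · subst hc'; exact hH
          · exact hoth c' hc'
        · have := hj.1 c
          rwa [cp_fl_same] at this
      · left
        have hin : ∀ c', H (cp x (j, c')) := by
          intro c'
          have hne : (j, c') ≠ (l, c) := fun h => hlj (Prod.mk.inj h).1.symm
          have := hj.1 c'
          rwa [cp_fl_ne x hne] at this
        have hoth : ∀ l', (l', χ j l') ≠ (l, c) → E j l' → ¬ G (cp x (l', χ j l')) := by
          intro l' hne hl'
          have := hj.2 l' hl'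
          rwa [cp_fl_ne x hne] at this
        have hex : ∃ l', E j l' ∧ G (cp x (l', χ j l')) := by
          by_contra hcon
          push Not at hcon
          exact hx ⟨j, hin, hcon⟩
        obtain ⟨l', hl', hG⟩ := hex
        have heq : (l', χ j l') = (l, c) := by
          by_contra hne
          exact hoth l' hne hl' hG
        obtain ⟨rfl, rfl⟩ := Prod.mk.inj heq
        have hnG : ¬ G (fl (cp x (l', χ j l')) v) := by
          have := hj.2 l' hl'
          rwa [cp_fl_same] at this
        refine ⟨⟨j, hl', rfl, hin, hG, fun l'' hne hl'' => hoth l'' ?_ hl'', fun hH => ?_⟩, hnG⟩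
        · exact fun h => hne (Prod.mk.inj h).1
        · exact hnG (g.nbr _ v hH)
    have hB : (univ.filter caseB).card ≤ 1 := by
      rw [card_le_one]
      rintro ⟨l, c⟩ h1 ⟨l', c'⟩ h2
      simp only [mem_filter, mem_univ, true_and] at h1 h2
      obtain ⟨j, a1, a2, a3, a4, a5, a6⟩ := h1
      obtain ⟨j', b1, b2, b3, b4, b5, b6⟩ := h2
      simp only at a1 a2 a4 a5 a6 b1 b2 b4 b5 b6
      subst a2 b2
      by_cases hjj : j = j'
      · subst hjj
        by_cases hll : l' = l
        · subst hll; rfl
        · exact absurd b4 (a5 l' hll b1)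
      · exfalso
        rcases t.semi j j' hjj with h | h
        · by_cases hl : j' = l
          · subst hl; exact a6 (b3 _)
          · exact a5 j' hl h (g.sub _ (b3 _))
        · by_cases hl : j = l'
          · subst hl; exact b6 (a3 _)
          · exact b5 j hl h (g.sub _ (a3 _))
    have hA : (univ.filter caseA).card ≤ 6 := by
      have hinj : ∀ k ∈ univ.filter caseA, ∀ k' ∈ univ.filter caseA, k.1 = k'.1 → k = k' := by
        rintro ⟨l, c⟩ h1 ⟨l', c'⟩ h2 h
        simp only [mem_filter, mem_univ, true_and] at h1 h2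
        simp only at h
        subst h
        by_contra hne
        have hc : c ≠ c' := fun h => hne (by rw [h])
        exact h1.2.1 (h2.1 c hc)
      obtain ⟨c0⟩ := ‹Nonempty C›
      let tt : V → C := fun l => if h : ∃ c, caseA (l, c) then h.choose else c0
      have htt : ∀ k, caseA k → tt k.1 = k.2 := by
        rintro ⟨l, c⟩ hk
        have hex : ∃ c, caseA (l, c) := ⟨c, hk⟩
        have h1 : tt l = hex.choose := by simp only [tt, dif_pos hex]
        have h2 := hinj (l, hex.choose) (by simpa using hex.choose_spec) (l, c) (by simpa using hk) rfl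
        rw [h1]
        exact (Prod.mk.inj h2).2
      rw [← card_image_of_injOn (f := Prod.fst) (fun a ha b hb h => hinj a ha b hb h)]
      apply t.small _ tt
      intro i hi j hj hE
      simp only [mem_image, mem_filter, mem_univ, true_and] at hi hj
      obtain ⟨ki, hki, rfl⟩ := hi
      obtain ⟨kj, hkj, rfl⟩ := hj
      rw [htt kj hkj]
      by_contra hne
      exact hki.2.2 _ hE (g.sub _ (hkj.1 _ hne))
    calc wsum M x (fun ξ => ∃ j, reg H (fun y => ¬ G y) E χ j (fl x ξ))
        ≤ wsum M x (fun ξ => caseB ξ.1 ∧ ¬ G (fl (cp x ξ.1) ξ.2)) +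
          wsum M x (fun ξ => caseA ξ.1 ∧ H (fl (cp x ξ.1) ξ.2)) := wsum_or M x hsplit
      _ ≤ 1 * q + 6 * r := by
          apply Nat.add_le_add
          · rw [wsum_prod]
            apply sum_le_of_ite _ caseB q 1 _ _ hB
            · intro k hk
              obtain ⟨j, -, -, -, hG, -⟩ := hk
              exact (wsum_mono M _ (fun v hv => hv.2)).trans (g.s1 _ hG)
            · intro k hk
              exact wsum_eq_zero M _ (fun v hv => hk hv.1)
          · rw [wsum_prod]
            apply sum_le_of_ite _ caseA r 6 _ _ hA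
            · intro k hk
              exact (wsum_mono M _ (fun v hv => hv.2)).trans (g.h0 _ hk.2.1)
            · intro k hk
              exact wsum_eq_zero M _ (fun v hv => hk hv.1)
      _ = q + 6 * r := by ring
  · -- one side sensitivity
    rintro x ⟨j, hj⟩
    have hsplit : ∀ ξ : (V × C) × W, (¬ ∃ j, reg H (fun y => ¬ G y) E χ j (fl x ξ)) →
        ((E j ξ.1.1 ∧ ξ.1.2 = χ j ξ.1.1) ∧ G (fl (cp x ξ.1) ξ.2)) ∨ (ξ.1.1 = j) := by
      rintro ⟨⟨l, c⟩, v⟩ hn
      by_cases hlj : l = j
      · exact Or.inr hlj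
      · left
        have hin : ∀ c', H (cp (fl x ((l, c), v)) (j, c')) := by
          intro c'
          have hne : (j, c') ≠ (l, c) := fun h => hlj (Prod.mk.inj h).1.symm
          rw [cp_fl_ne x hne]
          exact hj.1 c'
        have hex : ∃ l', E j l' ∧ G (cp (fl x ((l, c), v)) (l', χ j l')) := by
          by_contra hcon
          push Not at hcon
          exact hn ⟨j, hin, hcon⟩
        obtain ⟨l', hl', hG⟩ := hex
        have heq : (l', χ j l') = (l, c) := by
          by_contra hne
          rw [cp_fl_ne x hne] at hG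
          exact hj.2 l' hl' hG
        obtain ⟨rfl, rfl⟩ := Prod.mk.inj heq
        rw [cp_fl_same] at hG
        exact ⟨⟨hl', rfl⟩, hG⟩
    have h1 : (univ.filter fun k : V × C => E j k.1 ∧ k.2 = χ j k.1).card ≤ D := by
      refine le_trans ?_ (t.outdeg j)
      apply card_le_card_of_injOn Prod.fst
      · intro k hk
        simp only [coe_filter, mem_univ, true_and, Set.mem_ofPred_eq] at hk ⊢
        exact hk.1
      · rintro ⟨l, c⟩ h1 ⟨l', c'⟩ h2 h
        simp only [coe_filter, mem_univ, true_and, Set.mem_ofPred_eq] at h1 h2 h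
        subst h
        rw [h1.2, h2.2]
    have h2 : (univ.filter fun k : V × C => k.1 = j).card ≤ Fintype.card C := by
      rw [← Finset.card_univ]
      apply card_le_card_of_injOn Prod.snd
      · intro k _; simp
      · rintro ⟨l, c⟩ h1 ⟨l', c'⟩ h2 h
        simp only [coe_filter, mem_univ, true_and, Set.mem_ofPred_eq] at h1 h2 h
        subst h
        rw [h1, h2]
    calc wsum M x (fun ξ => ¬ ∃ j, reg H (fun y => ¬ G y) E χ j (fl x ξ))
        ≤ wsum M x (fun ξ => (E j ξ.1.1 ∧ ξ.1.2 = χ j ξ.1.1) ∧ G (fl (cp x ξ.1) ξ.2)) +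
          wsum M x (fun ξ => ξ.1.1 = j) := wsum_or M x hsplit
      _ ≤ D * p + Fintype.card C * (Fintype.card W * M) := by
          apply Nat.add_le_add
          · rw [wsum_prod]
            apply sum_le_of_ite _ (fun k : V × C => E j k.1 ∧ k.2 = χ j k.1) p D _ _
              h1
            · rintro ⟨l, c⟩ hk
              have hG : ¬ G (cp x (l, c)) := by
                have := hj.2 l hk.1
                have h3 : c = χ j l := hk.2
                rwa [← h3] at this
              exact (wsum_mono M _ (fun v hv => hv.2)).trans (g.s0 _ hG)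
            · intro k hk
              exact wsum_eq_zero M _ (fun v hv => hk hv.1)
          · rw [wsum_prod]
            apply sum_le_of_ite _ (fun k : V × C => k.1 = j) _ _ _ _ h2
            · intro k _
              exact wsum_le_card hM _ _
            · intro k hk
              exact wsum_eq_zero M _ (fun v hv => hk hv)
  · -- zero side sensitivity of the inner region
    intro x hx
    by_cases hex : ∃ ξ, ∃ j, reg (intr H) (intr fun y => ¬ G y) E χ j (fl x ξ)
    · obtain ⟨ξ0, j, hj⟩ := hex
      have hxj : reg H (fun y => ¬ G y) E χ j x := by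
        have := reg_nbr hj ξ0
        rwa [fl_fl] at this
      have hfail : ∃ k0 : V × C, ∀ y : (V × C) × W → Bool, cp y k0 = cp x k0 →
          ¬ reg (intr H) (intr fun y => ¬ G y) E χ j y := by
        have hn : ¬ reg (intr H) (intr fun y => ¬ G y) E χ j x := fun h => hx ⟨j, h⟩
        unfold reg at hn
        rw [not_and_or] at hn
        rcases hn with hn | hn
        · push Not at hn
          obtain ⟨c, hc⟩ := hn
          exact ⟨(j, c), fun y hy h => hc (hy ▸ h.1 c)⟩
        · push Not at hn
          obtain ⟨l, hl, hc⟩ := hn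
          exact ⟨(l, χ j l), fun y hy h => hc (hy ▸ h.2 l hl)⟩
      obtain ⟨k0, hk0⟩ := hfail
      have hall : ∀ ξ : (V × C) × W,
          (∃ j, reg (intr H) (intr fun y => ¬ G y) E χ j (fl x ξ)) → ξ.1 = k0 := by
        rintro ⟨k, v⟩ ⟨j', hj'⟩
        have hxj' : reg H (fun y => ¬ G y) E χ j' x := by
          have := reg_nbr hj' (k, v)
          rwa [fl_fl] at this
        have := uniq x j j' hxj hxj'
        subst this
        by_contra hne
        exact hk0 _ (cp_fl_ne x (fun h => hne h.symm) v) hj'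
      calc wsum M x (fun ξ => ∃ j, reg (intr H) (intr fun y => ¬ G y) E χ j (fl x ξ))
          ≤ wsum M x (fun ξ => ξ.1 = k0) := wsum_mono M x hall
        _ ≤ 1 * (Fintype.card W * M) := by
            rw [wsum_prod]
            apply sum_le_of_ite _ (fun k : V × C => k = k0) _ _ _ _ (by simp [filter_eq'])
            · intro k _
              exact wsum_le_card hM _ _
            · intro k hk
              exact wsum_eq_zero M _ (fun v hv => hk hv)
        _ = _ := one_mul _
    · rw [wsum_eq_zero M x (fun ξ h => hex ⟨ξ, h⟩)]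
      exact Nat.zero_le _

end Step

end

end Crest.Agent.H0485
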