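import Crest.Agent.H0485.Basic

set_option autoImplicit false

namespace Crest.Agent.H0485

open Finset

noncomputable section

/-- vertices of the digraph -/
abbrev TV (b : ℕ) : Type := ZMod 3 × Fin b × Fin b

/-- arcs of the digraph -/
def tE (b : ℕ) (i j : TV b) : Prop := i ≠ j ∧ (j.1 = i.1 ∨ j.1 = i.1 + 1)

/-- colours of the arcs -/
def tχ (b : ℕ) (i j : TV b) : Fin b ⊕ Fin b :=
  if i.2.1 = j.2.1 then Sum.inr i.2.2 else Sum.inl i.2.1

theorem tourn (b : ℕ) : Tourn (tE b) (tχ b) (2 * b ^ 2) := by
  classical
  refine ⟨fun i h => h.1 rfl, ?_, ?_, ?_⟩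
  · intro i j hij
    have key : ∀ a c : ZMod 3, (c = a ∨ c = a + 1) ∨ (a = c ∨ a = c + 1) := by decide
    rcases key i.1 j.1 with h | h
    · exact Or.inl ⟨hij, h⟩
    · exact Or.inr ⟨hij.symm, h⟩
  · intro i
    calc _ ≤ (({i.1, i.1 + 1} : Finset (ZMod 3)) ×ˢ (univ : Finset (Fin b × Fin b))).card := by
          apply card_le_card
          intro j hj
          rw [mem_filter] at hj
          rw [mem_product]
          refine ⟨?_, mem_univ _⟩
          rcases hj.2.2 with h | h <;> simp [h]
      _ ≤ 2 * b ^ 2 := by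
          rw [card_product]
          apply Nat.mul_le_mul
          · exact card_le_two
          · simp [sq]
  · intro T t hT
    have hcls : ∀ a : ZMod 3, (T.filter fun i => i.1 = a).card ≤ 2 := by
      intro a
      by_contra hcon
      push Not at hcon
      obtain ⟨i, j, k, hi, hj, hk, hij, hik, hjk⟩ := Finset.two_lt_card_iff.1 hcon
      rw [mem_filter] at hi hj hk
      have e1 : tχ b j i = tχ b k i := by
        rw [hT j hj.1 i hi.1 ⟨hij.symm, Or.inl (hi.2.trans hj.2.symm)⟩,
          hT k hk.1 i hi.1 ⟨hik.symm, Or.inl (hi.2.trans hk.2.symm)⟩]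
      have e2 : tχ b i j = tχ b k j := by
        rw [hT i hi.1 j hj.1 ⟨hij, Or.inl (hj.2.trans hi.2.symm)⟩,
          hT k hk.1 j hj.1 ⟨hjk.symm, Or.inl (hj.2.trans hk.2.symm)⟩]
      obtain ⟨i1, i2, i3⟩ := i
      obtain ⟨j1, j2, j3⟩ := j
      obtain ⟨k1, k2, k3⟩ := k
      have hi1 : i1 = a := hi.2
      have hj1 : j1 = a := hj.2
      have hk1 : k1 = a := hk.2
      subst hi1 hj1 hk1
      simp only [tχ] at e1 e2
      simp only [ne_eq, Prod.mk.injEq, true_and, not_and] at hij hik hjk
      by_cases a1 : j2 = i2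
      · by_cases a2 : k2 = i2
        · rw [if_pos a1, if_pos a2] at e1
          exact hjk (a1.trans a2.symm) (Sum.inr.inj e1)
        · rw [if_pos a1, if_neg a2] at e1
          exact absurd e1 (by simp)
      · by_cases a2 : k2 = i2
        · rw [if_neg a1, if_pos a2] at e1
          exact absurd e1 (by simp)
        · rw [if_neg a1, if_neg a2] at e1
          have e3 : j2 = k2 := Sum.inl.inj e1
          rw [if_neg (fun h => a1 h.symm), if_pos e3.symm] at e2
          exact absurd e2 (by simp)
    calc T.card = ∑ a : ZMod 3, (T.filter fun i => i.1 = a).card :=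
          card_eq_sum_card_fiberwise (fun _ _ => mem_coe.2 (mem_univ _))
      _ ≤ ∑ _a : ZMod 3, 2 := sum_le_sum fun a _ => hcls a
      _ = 6 := by simp

/-- number of ones -/
def ones {N : ℕ} (x : Fin N → Bool) : ℕ := (univ.filter fun i => x i = true).card

theorem ones_eq_hd {N : ℕ} (x : Fin N → Bool) : ones x = hd x (zr _) := by
  unfold ones hd zr
  congr 1
  ext i
  simp

theorem ones_add_hd {N : ℕ} (x : Fin N → Bool) : ones x + hd x (ind univ) = N := by
  have : hd x (ind univ) = (univ.filter fun i => ¬ x i = true).card := by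
    unfold hd
    congr 1
    ext i
    simp [ind]
  rw [this]
  unfold ones
  rw [card_filter_add_card_filter_not]
  simp

theorem ones_fl_le {N : ℕ} (x : Fin N → Bool) (v : Fin N) : ones x ≤ ones (fl x v) + 1 := by
  have := hd_fl (fl x v) (zr _) v
  rw [fl_fl] at this
  rw [ones_eq_hd, ones_eq_hd]
  exact this

theorem ones_fl_true {N : ℕ} (x : Fin N → Bool) (v : Fin N) (hv : x v = true) :
    ones (fl x v) ≤ ones x := by
  unfold ones
  apply card_le_card
  intro i hi
  rw [mem_filter] at hi ⊢
  refine ⟨mem_univ _, ?_⟩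
  by_cases h : i = v
  · rw [h]; exact hv
  · simpa [fl, h] using hi.2

theorem wsum_up {N M : ℕ} (x : Fin N → Bool) (t : ℕ) (hx : ¬ t ≤ ones x) :
    wsum M x (fun v => t ≤ ones (fl x v)) ≤ N := by
  unfold wsum
  calc _ ≤ ∑ _v : Fin N, 1 := by
        apply sum_le_sum
        intro v _
        split_ifs with h
        · cases hv : x v
          · simp [wt]
          · exact absurd (h.trans (ones_fl_true x v hv)) hx
        · exact Nat.zero_le _
    _ = N := by simp

theorem base {M : ℕ} (hM : 1 ≤ M) (d : ℕ) :
    Good M d (W := Fin (2 * d + 2)) (U := Unit) (fun x => d + 1 ≤ ones x) (fun x => d + 2 ≤ ones x)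
      (fun _ => univ) (2 * d + 2) ((2 * d + 2) * M) (2 * d + 2) := by
  refine ⟨fun x h => by omega, fun x v h => ?_, fun _ x h => ?_, fun x h => ?_,
    fun u u' h => absurd (Subsingleton.elim _ _) h, fun x hx => wsum_up x _ hx, fun x _ => ?_,
    fun x hx => wsum_up x _ hx⟩
  · have := ones_fl_le x v
    omega
  · have := ones_add_hd x
    omega
  · rw [← ones_eq_hd] at h
    omega
  · simpa using wsum_le_card hM x (fun v => ¬ d + 1 ≤ ones (fl x v))

/-- the iterated construction -/
theorem iter (n : ℕ) : ∀ k : ℕ, ∃ (W U : Type) (_ : Fintype W) (_ : Fintype U)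
    (G H : (W → Bool) → Prop) (A : U → Finset W) (p q r : ℕ), Good 120 k G H A p q r ∧
      1 ≤ p ∧ 120 * r ≤ q ∧ p * 120 ≤ q ∧
      4 ^ n * (p * q) ≤ 3 ^ n * ((2 * (k + n) + 2) ^ 2 * (Fintype.card U * 120)) := by
  induction n with
  | zero =>
    intro k
    refine ⟨Fin (2 * k + 2), Unit, inferInstance, inferInstance, _, _, _, _, _, _,
      base (by norm_num) k, by omega, by omega, le_rfl, ?_⟩
    simp only [pow_zero, one_mul, add_zero, Fintype.card_unit]
    apply le_of_eq
    ring
  | succ n ih =>
    intro k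
    obtain ⟨W, U, _, _, G, H, A, p, q, r, g, hp, hr, hpq, hrat⟩ := ih (k + 1)
    set w := Fintype.card W * 120 with hw
    set b := 60 * w + (q + 6 * r) * 120 + 1 with hb
    have : Nonempty (Fin b ⊕ Fin b) := ⟨Sum.inl ⟨0, by omega⟩⟩
    have g' := step (by norm_num : 1 ≤ 120) g (tourn b)
    have hC : Fintype.card (Fin b ⊕ Fin b) = 2 * b := by simp; ring
    have hV : Fintype.card (TV b × U) = 3 * b ^ 2 * Fintype.card U := by
      rw [Fintype.card_prod, Fintype.card_prod, Fintype.card_prod, ZMod.card, Fintype.card_fin]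
      ring
    rw [hC, ← hw] at g'
    have hb1 : 1 ≤ b := by omega
    have hbb : b ≤ b ^ 2 * p := by nlinarith
    refine ⟨(TV b × (Fin b ⊕ Fin b)) × W, TV b × U, inferInstance, inferInstance, _, _, _, _, _, _,
      g', by omega, by nlinarith, by nlinarith, ?_⟩
    rw [hV]
    have h1 : 20 * (q + 6 * r) ≤ 21 * q := by omega
    have h2 : 20 * (2 * b ^ 2 * p + 2 * b * w) ≤ 42 * (b ^ 2 * p) := by
      have : 20 * w ≤ b * p := by nlinarith
      nlinarith
    have h3 : 4 * ((q + 6 * r) * (2 * b ^ 2 * p + 2 * b * w)) ≤ 9 * b ^ 2 * (p * q) := by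
      have := Nat.mul_le_mul h1 h2
      nlinarith
    have e : k + 1 + n = k + (n + 1) := by ring
    rw [e] at hrat
    calc 4 ^ (n + 1) * ((q + 6 * r) * (2 * b ^ 2 * p + 2 * b * w))
        = 4 ^ n * (4 * ((q + 6 * r) * (2 * b ^ 2 * p + 2 * b * w))) := by ring
      _ ≤ 4 ^ n * (9 * b ^ 2 * (p * q)) := Nat.mul_le_mul_left _ h3
      _ = 9 * b ^ 2 * (4 ^ n * (p * q)) := by ring
      _ ≤ 9 * b ^ 2 * (3 ^ n * ((2 * (k + (n + 1)) + 2) ^ 2 * (Fintype.card U * 120))) :=
          Nat.mul_le_mul_left _ hrat
      _ = _ := by ring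

/-- An outer function suitable for self-composition. -/
structure Outer (M L : ℕ) {W U : Type} [Fintype W] (F : (W → Bool) → Prop) (A : U → Finset W) :
    Prop where
  tgt : ∀ u, F (ind (A u))
  zero : ¬ F (zr W)
  disj : ∀ u u', u ≠ u' → Disjoint (A u) (A u')
  s0 : ∀ x, ¬ F x → wsum M x (fun v => F (fl x v)) ≤ L
  s1 : ∀ x, F x → wsum M x (fun v => ¬ F (fl x v)) ≤ L * M

open Classical in
theorem cp_ind_prod {κ W : Type} (S : Finset κ) (A : Finset W) (k : κ) :
    cp (ind (S ×ˢ A)) k = if k ∈ S then ind A else zr W := by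
  funext v
  by_cases h : k ∈ S <;> simp [cp, ind, zr, h]

theorem exists_outer : ∃ (W U : Type) (_ : Fintype W) (_ : Fintype U) (F : (W → Bool) → Prop)
    (A : U → Finset W) (L : ℕ), Outer 120 L F A ∧ 1 ≤ L ∧ 2 * L ^ 2 ≤ Fintype.card U := by
  classical
  obtain ⟨W, U, _, _, G, H, A, p, q, r, g, hp, -, hpq, hrat⟩ := iter 40 0
  have h8 : 8 * (p * q) ≤ Fintype.card U * 120 := by
    norm_num at hrat
    omega
  set R := q / (p * 120) with hR
  have hpos : 0 < p * 120 := by omega
  have hR1 : 1 ≤ R := (Nat.le_div_iff_mul_le hpos).2 (by omega)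
  have hR2 : R * (p * 120) ≤ q := Nat.div_mul_le_self _ _
  have hR3 : q < (R + 1) * (p * 120) := by
    have := Nat.lt_div_mul_add (a := q) hpos
    rw [← hR] at this
    nlinarith
  refine ⟨Fin R × W, Fin R × U, inferInstance, inferInstance, fun x => ∃ i, G (cp x i),
    fun iu => {iu.1} ×ˢ A iu.2, 2 * R * p, ⟨?_, ?_, ?_, ?_, ?_⟩, by nlinarith, ?_⟩
  · rintro ⟨i, u⟩
    refine ⟨i, ?_⟩
    rw [cp_ind_prod]
    simp only [mem_singleton, if_true]
    exact g.sub _ (g.tgt u _ (by rw [hd_self]))
  · rintro ⟨i, hi⟩
    exact g.zero (zr W) (by rw [hd_self]) hi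
  · rintro ⟨i, u⟩ ⟨i', u'⟩ hne
    rw [Finset.disjoint_left]
    rintro ⟨l, v⟩ h1 h2
    simp only [mem_product, mem_singleton] at h1 h2
    obtain ⟨rfl, hv⟩ := h1
    obtain ⟨rfl, hv'⟩ := h2
    have : u ≠ u' := fun h => hne (by rw [h])
    exact Finset.disjoint_left.1 (g.disj u u' this) hv hv'
  · intro x hx
    rw [wsum_prod]
    calc _ ≤ ∑ _i : Fin R, p := by
          apply sum_le_sum
          intro i _
          refine (wsum_mono _ _ ?_).trans (g.s0 _ (fun h => hx ⟨i, h⟩))
          rintro v ⟨i', hi'⟩
          by_cases h : i' = i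
          · subst h
            rwa [cp_fl_same] at hi'
          · rw [cp_fl_ne x h] at hi'
            exact absurd ⟨i', hi'⟩ hx
      _ = R * p := by simp
      _ ≤ 2 * R * p := by nlinarith
  · rintro x ⟨i, hi⟩
    rw [wsum_prod]
    calc _ ≤ 1 * q := by
          apply sum_le_of_ite _ (fun k => k = i) q 1 _ _ (by simp [filter_eq'])
          · rintro k rfl
            refine (wsum_mono _ _ ?_).trans (g.s1 _ hi)
            intro v hv hG
            exact hv ⟨k, by rwa [cp_fl_same]⟩
          · intro k hk
            apply wsum_eq_zero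
            intro v hv
            exact hv ⟨i, by rwa [cp_fl_ne x (fun h => hk h.symm)]⟩
      _ ≤ 2 * R * p * 120 := by nlinarith
  · rw [Fintype.card_prod, Fintype.card_fin]
    have : 120 * (2 * (2 * R * p) ^ 2) ≤ 120 * (R * Fintype.card U) := by
      calc 120 * (2 * (2 * R * p) ^ 2) = R * (8 * (p * (R * (p * 120)))) := by ring
        _ ≤ R * (8 * (p * q)) := by gcongr
        _ ≤ R * (Fintype.card U * 120) := Nat.mul_le_mul_left _ h8
        _ = _ := by ring
    omega

open Classical in
/-- plain sensitivity at a point -/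
def sens {ι : Type} [Fintype ι] (f : (ι → Bool) → Prop) (x : ι → Bool) : ℕ :=
  (univ.filter fun v => ¬ (f (fl x v) ↔ f x)).card

open Classical in
theorem compose {M L : ℕ} (hM : 1 ≤ M) {W U : Type} [Fintype W] [Fintype U]
    {F : (W → Bool) → Prop} {A : U → Finset W} (o : Outer M L F A) (n : ℕ) :
    ∃ (ι J : Type) (_ : Fintype ι) (_ : Fintype J) (f : (ι → Bool) → Prop) (B : J → Finset ι),
      (∀ x, sens f x ≤ L ^ n * wt M (decide (f x))) ∧ ¬ f (zr ι) ∧ (∀ j, f (ind (B j))) ∧
      (∀ j j', j ≠ j' → Disjoint (B j) (B j')) ∧ Fintype.card J = Fintype.card U ^ n := by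
  induction n with
  | zero =>
    refine ⟨Unit, Unit, inferInstance, inferInstance, fun x => x () = true, fun _ => univ,
      fun x => ?_, by simp [zr], fun _ => by simp [ind],
      fun j j' h => absurd (Subsingleton.elim _ _) h, by simp⟩
    rw [pow_zero, one_mul]
    refine le_trans ?_ (one_le_wt hM _)
    unfold sens
    exact (card_le_univ _).trans (by simp)
  | succ n ih =>
    obtain ⟨ι, J, _, _, f, B, hs, h0, h1, hd, hc⟩ := ih
    refine ⟨W × ι, U × J, inferInstance, inferInstance,
      fun x => F (fun w => decide (f (cp x w))), fun uj => A uj.1 ×ˢ B uj.2, fun x => ?_, ?_, ?_,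
      ?_, ?_⟩
    · set y : W → Bool := fun w => decide (f (cp x w)) with hy
      have hsum : sens (fun x : W × ι → Bool => F (fun w => decide (f (cp x w)))) x ≤
          L ^ n * wsum M y (fun w => ¬ (F (fl y w) ↔ F y)) := by
        unfold sens wsum
        rw [card_filter, Fintype.sum_prod_type, mul_sum]
        apply sum_le_sum
        intro w _
        rw [← card_filter]
        have hchg : ∀ v, ¬ (F (fun w' => decide (f (cp (fl x (w, v)) w'))) ↔ F y) →
            ¬ (f (fl (cp x w) v) ↔ f (cp x w)) ∧ ¬ (F (fl y w) ↔ F y) := by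
          intro v hv
          have hA : ¬ (f (fl (cp x w) v) ↔ f (cp x w)) := by
            intro hiff
            apply hv
            have : (fun w' => decide (f (cp (fl x (w, v)) w'))) = y := by
              funext w'
              by_cases h : w' = w
              · subst h
                rw [cp_fl_same, hy]
                exact decide_eq_decide.2 hiff
              · rw [cp_fl_ne x h]
            rw [this]
          refine ⟨hA, ?_⟩
          have : (fun w' => decide (f (cp (fl x (w, v)) w'))) = fl y w := by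
            funext w'
            by_cases h : w' = w
            · subst h
              rw [cp_fl_same]
              simp only [fl, if_true, hy]
              by_cases h2 : f (cp x w') <;> simp_all
            · rw [cp_fl_ne x h]
              simp [fl, h, hy]
          rwa [this] at hv
        by_cases hw : ¬ (F (fl y w) ↔ F y)
        · rw [if_pos hw]
          refine le_trans ?_ (hs (cp x w))
          unfold sens
          apply card_le_card
          intro v hv
          rw [mem_filter] at hv ⊢
          exact ⟨mem_univ _, (hchg v hv.2).1⟩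
        · rw [if_neg hw]
          rw [mul_zero, Nat.le_zero, card_eq_zero, filter_eq_empty_iff]
          intro v _ hv
          exact hw (hchg v hv).2
      refine hsum.trans ?_
      rw [pow_succ, mul_assoc]
      apply Nat.mul_le_mul_left
      by_cases hF : F y
      · have : decide (F y) = true := by simpa using hF
        rw [this]
        refine (wsum_mono _ _ ?_).trans (o.s1 y hF)
        intro w hw h
        exact hw ⟨fun _ => hF, fun _ => h⟩
      · have : decide (F y) = false := by simpa using hF
        rw [this]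
        simp only [wt, Bool.false_eq_true, if_false, mul_one]
        refine (wsum_mono _ _ ?_).trans (o.s0 y hF)
        intro w hw
        by_contra h
        exact hw ⟨fun h' => absurd h' h, fun h' => absurd h' hF⟩
    · have : (fun w => decide (f (cp (zr (W × ι)) w))) = zr W := by
        funext w
        have : cp (zr (W × ι)) w = zr ι := rfl
        rw [this]
        simp [zr, h0]
      show ¬ F _
      rw [this]
      exact o.zero
    · rintro ⟨u, j⟩
      have : (fun w => decide (f (cp (ind (A u ×ˢ B j)) w))) = ind (A u) := by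
        funext w
        rw [cp_ind_prod]
        by_cases h : w ∈ A u
        · simp [h, ind, h1 j]
        · simp [h, ind, h0]
      show F _
      rw [this]
      exact o.tgt u
    · rintro ⟨u, j⟩ ⟨u', j'⟩ hne
      rw [Finset.disjoint_left]
      rintro ⟨w, v⟩ a1 a2
      simp only [mem_product] at a1 a2
      by_cases hu : u = u'
      · subst hu
        have : j ≠ j' := fun h => hne (by rw [h])
        exact Finset.disjoint_left.1 (hd j j' this) a1.2 a2.2
      · exact Finset.disjoint_left.1 (o.disj u u' hu) a1.1 a2.1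
    · rw [Fintype.card_prod, hc, pow_succ, mul_comm]

end

end Crest.Agent.H0485
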